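import Vale.Agent.P270.R2.H73.ThmW

/-!
# P270 / R1, module M5: the proof of `ThmW`
-/

open scoped Manifold ContDiff ComplexOrder Topology ENNReal
open MeasureTheory Metric Set Filter

set_option linter.all false

noncomputable section

namespace Vale.Agent.P270.R2.H73

open Vale.Agent.P272 Vale.Agent.P272.K Vale.Agent.P272.HY Vale.Agent.P272.XT
open Vale.Agent.P272.K.AMP (hess)

lemma cst_pos {K M : ℝ} (hK : 0 < K) (hM : 0 < M) : 0 < cst K M := by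
  have h1 : 0 < √(2 * K) := Real.sqrt_pos.2 (by linarith)
  have h2 : 0 < K * √M + √(2 * K) := by positivity
  unfold cst
  positivity

/-- limits of bounded sequences along the hyperfilter -/
lemma exists_ulim {a : ℕ → ℝ} {m M : ℝ} (h : ∀ j, a j ∈ Icc m M) :
    ∃ L ∈ Icc m M, Tendsto a (hyperfilter ℕ : Filter ℕ) (𝓝 L) := by
  have h0 : (((hyperfilter ℕ).map a : Ultrafilter ℝ) : Filter ℝ) ≤ 𝓟 (Icc m M) := by
    rw [Ultrafilter.coe_map]
    exact Filter.le_principal_iff.2 (Filter.mem_map.2 (Filter.univ_mem' h))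
  obtain ⟨L, hL, h1⟩ := isCompact_Icc.ultrafilter_le_nhds ((hyperfilter ℕ).map a) h0
  exact ⟨L, hL, h1⟩

/-- the times `1/(j+1)` -/
def ts (j : ℕ) : ℝ := 1 / ((j : ℝ) + 1)

lemma ts_pos (j : ℕ) : 0 < ts j := by unfold ts; positivity

lemma ts_le_one (j : ℕ) : ts j ≤ 1 := by
  unfold ts
  rw [div_le_one (by positivity)]
  have : (0 : ℝ) ≤ j := Nat.cast_nonneg j
  linarith

lemma ts_small {t : ℝ} (ht : 0 < t) : ∀ᶠ j in (hyperfilter ℕ : Filter ℕ), ts j ≤ t := by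
  have h1 : Tendsto ts atTop (𝓝 0) := tendsto_one_div_add_atTop_nhds_zero_nat
  have h2 : ∀ᶠ j in (atTop : Filter ℕ), ts j < t := h1.eventually (gt_mem_nhds ht)
  exact (h2.filter_mono Nat.hyperfilter_le_atTop).mono fun j hj => hj.le

lemma continuous_rpow23 : Continuous fun x : ℝ => x ^ ((2 : ℝ) / 3) :=
  Real.continuous_rpow_const (by norm_num)

/-- **M5** -/
theorem thmW (n : ℕ) (X : Type) [TopologicalSpace X] [T2Space X] [CompactSpace X]
    [ChartedSpace (Cm n) X] [IsManifold 𝓘(ℂ, Cm n) ω X] (hra : XRAW n X) (hec : ECtl n X)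
    (hext : XEXT n X) : ThmW n X := by
  intro w hw M hM hbd C hC
  have hwH := hw.toIsHermitian
  obtain ⟨Cw, hCw, hra'⟩ := hra w hwH C hC
  obtain ⟨C₁, hC₁, hc1⟩ := exists_c1 hext hw hM hbd
  have hn0 : (0 : ℝ) ≤ n := Nat.cast_nonneg n
  set K : ℝ := 2 * (n * Cw) + 2 with hK
  have hK0 : 0 < K := by positivity
  set c0 : ℝ := cst K M with hc0
  have hc00 : 0 < c0 := cst_pos hK0 hM
  set L0 : ℝ := Real.exp (3 * M ^ ((1 : ℝ) / 3) / c0) + 1 with hL0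
  have hL01 : 1 ≤ L0 := by
    have := Real.exp_pos (3 * M ^ ((1 : ℝ) / 3) / c0)
    linarith
  have hL00 : 0 < L0 := by linarith
  refine ⟨1 / (2 * L0), by positivity, ?_⟩
  intro S hSs hS hS1 hNZ hlow B κ hB hκ g hgK hgB hric r hr
  rcases isEmpty_or_nonempty X with hX | hX
  · exact ⟨1, one_pos, le_rfl, fun e x => (IsEmpty.false x).elim⟩
  have hbd' : ∀ k τ, 0 < τ → τ ≤ 1 → ∀ f : ℂ → X, HolD n f →
      BR.spd (wt (rho S k τ) w) f 0 ≤ M := by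
    intro k τ hτ hτ1 f hf
    rw [spd_wt]
    have h1 := hbd f hf
    have h2 := BR.spd_nonneg hwH f 0
    have h3 := rho_le_one (k := k) hS hS1 hτ hτ1 (f 0)
    have h4 := (rho_pos (k := k) hS hτ (f 0)).le
    nlinarith
  have hwt : ∀ k τ, 0 < τ → IsHermitian (wt (rho S k τ) w) := fun k τ hτ =>
    isHermitian_wt (smooth_rho hSs hS hτ) (rho_pos hS hτ) hwH
  have hmax : ∀ (k : ℕ) (τ l : ℝ), 0 < τ ∧ τ ≤ 1 ∧ 0 < l →
      ∃ f : ℂ → X, IsMaxX (wt (rho S k τ) w) (g τ) l f := fun k τ l h =>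
    x4 n X inferInstance _ _ (hwt k τ h.1) (hgK τ h.1 h.2.1).toIsHermitian l M h.2.2
      (hbd' k τ h.1 h.2.1)
  choose! G hG using hmax
  set s : ℕ → ℝ → ℝ → ℝ := fun k τ l => PhX (wt (rho S k τ) w) (g τ) l (G k τ l) with hs
  set T : ℕ → ℝ → ℝ → ℝ := fun k τ l => (TW (g τ) (G k τ l)).toReal with hT
  set q : ℕ → ℝ → ℝ → ℝ := fun k τ l => BR.spd w (G k τ l) 0 with hq
  set θ : ℕ → ℝ → ℝ → ℝ := fun k τ l => rho S k τ (G k τ l 0) with hθ
  have hT0 : ∀ k τ l, 0 ≤ T k τ l := fun k τ l => ENNReal.toReal_nonneg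
  have hq0 : ∀ k τ l, 0 ≤ q k τ l := fun k τ l => BR.spd_nonneg hwH _ _
  have hθ0 : ∀ k τ l, 0 < τ → 0 < θ k τ l := fun k τ l hτ => rho_pos hS hτ _
  have hθ1 : ∀ k τ l, 0 < τ → τ ≤ 1 → θ k τ l ≤ 1 := fun k τ l hτ hτ1 =>
    rho_le_one hS hS1 hτ hτ1 _
  have hspd : ∀ k τ l, BR.spd (wt (rho S k τ) w) (G k τ l) 0 = θ k τ l * q k τ l :=
    fun k τ l => spd_wt _ _ _ _
  have hsE : ∀ k τ l, s k τ l = θ k τ l * q k τ l - l * T k τ l := fun k τ l => by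
    show BR.spd (wt (rho S k τ) w) (G k τ l) 0 - l * (TW (g τ) (G k τ l)).toReal = _
    rw [hspd]
  have hqM : ∀ k τ l, 0 < τ → τ ≤ 1 → 0 < l → q k τ l ≤ M := fun k τ l h1 h2 h3 =>
    hbd _ (hG k τ l ⟨h1, h2, h3⟩).holo
  have hs0 : ∀ k τ l, 0 < τ → τ ≤ 1 → 0 < l → 0 ≤ s k τ l := fun k τ l h1 h2 h3 =>
    (hG k τ l ⟨h1, h2, h3⟩).nonneg
  have hsM : ∀ k τ l, 0 < τ → τ ≤ 1 → 0 < l → s k τ l ≤ M := by
    intro k τ l h1 h2 h3
    have a1 := hbd' k τ h1 h2 _ (hG k τ l ⟨h1, h2, h3⟩).holo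
    rw [hspd] at a1
    have a2 := mul_nonneg h3.le (hT0 k τ l)
    rw [hsE]
    linarith
  -- the envelope inequality
  have hs1 : ∀ k τ l₁ l₂, 0 < τ → τ ≤ 1 → 0 < l₁ → 0 < l₂ →
      s k τ l₂ + (l₂ - l₁) * T k τ l₂ ≤ s k τ l₁ := by
    intro k τ l₁ l₂ h1 h2 h3 h4
    have a1 := (hG k τ l₁ ⟨h1, h2, h3⟩).max (G k τ l₂) (hG k τ l₂ ⟨h1, h2, h4⟩).holo
      (hG k τ l₂ ⟨h1, h2, h4⟩).fin
    have a2 : PhX (wt (rho S k τ) w) (g τ) l₁ (G k τ l₂) =
        θ k τ l₂ * q k τ l₂ - l₁ * T k τ l₂ := by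
      show BR.spd (wt (rho S k τ) w) (G k τ l₂) 0 - l₁ * (TW (g τ) (G k τ l₂)).toReal = _
      rw [hspd]
    rw [a2] at a1
    rw [hsE k τ l₂]
    have a3 : PhX (wt (rho S k τ) w) (g τ) l₁ (G k τ l₁) = s k τ l₁ := rfl
    rw [a3] at a1
    linarith
  -- comparison of the weights `k` and `k + 1`
  have hs2 : ∀ k τ l, 0 < τ → τ ≤ 1 → 0 < l →
      (√(θ k τ l) - θ k τ l) * q k τ l ≤ s (k + 1) τ l - s k τ l := by
    intro k τ l h1 h2 h3
    have a1 := (hG (k + 1) τ l ⟨h1, h2, h3⟩).max (G k τ l) (hG k τ l ⟨h1, h2, h3⟩).holo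
      (hG k τ l ⟨h1, h2, h3⟩).fin
    have a2 : PhX (wt (rho S (k + 1) τ) w) (g τ) l (G k τ l) =
        √(θ k τ l) * q k τ l - l * T k τ l := by
      show BR.spd (wt (rho S (k + 1) τ) w) (G k τ l) 0 - l * (TW (g τ) (G k τ l)).toReal = _
      rw [spd_wt, rho_succ hS h1]
    rw [a2] at a1
    rw [hsE k τ l]
    have a3 : PhX (wt (rho S (k + 1) τ) w) (g τ) l (G (k + 1) τ l) = s (k + 1) τ l := rfl
    rw [a3] at a1
    linarith
  have hmono : ∀ k τ l, 0 < τ → τ ≤ 1 → 0 < l → s k τ l ≤ s (k + 1) τ l := by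
    intro k τ l h1 h2 h3
    have a1 := hs2 k τ l h1 h2 h3
    have a2 : θ k τ l ≤ √(θ k τ l) := by
      refine Real.le_sqrt_of_sq_le ?_
      nlinarith [hθ0 k τ l h1, hθ1 k τ l h1 h2]
    have a3 := mul_nonneg (sub_nonneg.2 a2) (hq0 k τ l)
    linarith
  -- the cost estimate at the maximisers
  have hcost : ∀ k τ l K', 0 < τ → τ ≤ 1 → 0 < l → 0 < K' → 0 < s k τ l →
      TW (errm w S κ τ) (G k τ l) ≠ ⊤ →
      n * (Cw * q k τ l) + (T k τ l + (TW (errm w S κ τ) (G k τ l)).toReal) ≤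
        K' * (θ k τ l * q k τ l) →
      cst K' M * s k τ l ^ ((2 : ℝ) / 3) ≤ l * T k τ l := by
    intro k τ l K' h1 h2 h3 h4 h5 h6 h7
    refine cost hwH (hgK τ h1 h2) hSs hS hS1 h1 h2 hκ hC hlow hM hbd
      (fun e x hx => hric τ h1 h2 e x hx) hra' h3 h4 (hG k τ l ⟨h1, h2, h3⟩) h5 h6 ?_
    rw [hspd]
    exact h7
  -- the limits `τ → 0`
  have hlim : ∀ (k : ℕ) (l : ℝ), 0 < l →
      ∃ L ∈ Icc (0 : ℝ) M, Tendsto (fun j => s k (ts j) l) (hyperfilter ℕ : Filter ℕ) (𝓝 L) :=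
    fun k l hl => exists_ulim fun j => ⟨hs0 k _ l (ts_pos j) (ts_le_one j) hl,
      hsM k _ l (ts_pos j) (ts_le_one j) hl⟩
  choose! Sk hSkm hSk using hlim
  have hSkmono : ∀ l, 0 < l → Monotone fun k => Sk k l := fun l hl =>
    monotone_nat_of_le_succ fun k => le_of_tendsto_of_tendsto (hSk k l hl) (hSk (k + 1) l hl)
      (Eventually.of_forall fun j => hmono k _ l (ts_pos j) (ts_le_one j) hl)
  have hSkbdd : ∀ l, 0 < l → BddAbove (range fun k => Sk k l) := fun l hl =>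
    ⟨M, by rintro _ ⟨k, rfl⟩; exact (hSkm k l hl).2⟩
  set σ : ℝ → ℝ := fun l => ⨆ k, Sk k l with hσ
  have hσt : ∀ l, 0 < l → Tendsto (fun k => Sk k l) atTop (𝓝 (σ l)) := fun l hl =>
    tendsto_atTop_ciSup (hSkmono l hl) (hSkbdd l hl)
  have hSσ : ∀ k l, 0 < l → Sk k l ≤ σ l := fun k l hl => le_ciSup (hSkbdd l hl) k
  have hσ0 : ∀ l, 0 < l → 0 ≤ σ l := fun l hl => (hSkm 0 l hl).1.trans (hSσ 0 l hl)
  have hσM : ∀ l, 0 < l → σ l ≤ M := fun l hl => ciSup_le fun k => (hSkm k l hl).2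
  -- the inequality in the limit
  have hmain : ∀ l₁ l₂, 1 ≤ l₁ → l₁ ≤ l₂ →
      σ l₂ + (l₂ - l₁) * (c0 * σ l₂ ^ ((2 : ℝ) / 3) / l₂) ≤ σ l₁ := by
    intro l₁ l₂ h1 h12
    have h10 : 0 < l₁ := by linarith
    have h20 : 0 < l₂ := by linarith
    rcases (hσ0 l₂ h20).eq_or_lt with h0 | h0
    · rw [← h0, Real.zero_rpow (by norm_num)]
      simpa using hσ0 l₁ h10
    have hc2 : Continuous fun x : ℝ => x + (l₂ - l₁) * (c0 * x ^ ((2 : ℝ) / 3) / l₂) := by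
      have := continuous_rpow23
      fun_prop
    have e1 : ∀ᶠ k in atTop, σ l₂ / 2 < Sk k l₂ :=
      (hσt l₂ h20).eventually (lt_mem_nhds (by linarith))
    have e2 : ∀ᶠ k in atTop, Sk (k + 1) l₂ - Sk k l₂ < σ l₂ / 10 := by
      have h3 : Tendsto (fun k => Sk (k + 1) l₂ - Sk k l₂) atTop (𝓝 (σ l₂ - σ l₂)) :=
        ((tendsto_add_atTop_iff_nat 1).2 (hσt l₂ h20)).sub (hσt l₂ h20)
      rw [sub_self] at h3
      exact h3.eventually (gt_mem_nhds (by linarith))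
    refine le_of_tendsto ((hc2.tendsto _).comp (hσt l₂ h20)) ?_
    filter_upwards [e1, e2] with k k1 k2
    refine le_trans ?_ (hSσ k l₁ h10)
    obtain ⟨τ₀, hτ₀, hτ₀1, hE⟩ := hec w hwH M hM hbd S hSs hS hS1 hNZ B κ (dk k) (σ l₂ / 2)
      (σ l₂ / 2) hB hκ (dk_pos k) (by linarith) (by linarith)
    refine le_of_tendsto_of_tendsto ((hc2.tendsto _).comp (hSk k l₂ h20)) (hSk k l₁ h10) ?_
    have f1 : ∀ᶠ j in (hyperfilter ℕ : Filter ℕ), σ l₂ / 2 < s k (ts j) l₂ :=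
      (hSk k l₂ h20).eventually (lt_mem_nhds k1)
    have f2 : ∀ᶠ j in (hyperfilter ℕ : Filter ℕ),
        s (k + 1) (ts j) l₂ - s k (ts j) l₂ < σ l₂ / 10 :=
      ((hSk (k + 1) l₂ h20).sub (hSk k l₂ h20)).eventually (gt_mem_nhds k2)
    filter_upwards [f1, f2, ts_small hτ₀] with j j1 j2 j3
    have p1 := ts_pos j
    have p2 := ts_le_one j
    set τ := ts j with hτ
    have hsp : 0 < s k τ l₂ := by linarith
    have hlT : 0 ≤ l₂ * T k τ l₂ := mul_nonneg h20.le (hT0 _ _ _)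
    have b1 : s k τ l₂ ≤ θ k τ l₂ * q k τ l₂ := by rw [hsE]; linarith
    have b2 : 1 / 2 ≤ θ k τ l₂ := half_le_of (hθ0 k τ l₂ p1).le (hθ1 k τ l₂ p1 p2) (hq0 _ _ _)
      h0 ((hs2 k τ l₂ p1 p2 h20).trans_lt j2) (by linarith)
    have b3 : TW (errm w S κ τ) (G k τ l₂) ≤ ENNReal.ofReal (σ l₂ / 2) := by
      refine hE τ p1 j3 (g τ) (hgK τ p1 p2).toIsHermitian (hgB τ p1 p2) l₂ (by linarith)
        (G k τ l₂) (hG k τ l₂ ⟨p1, p2, h20⟩) ?_
      show σ l₂ / 2 ≤ BR.spd (wt (rho S k τ) w) (G k τ l₂) 0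
      rw [hspd]
      linarith
    have b4 : TW (errm w S κ τ) (G k τ l₂) ≠ ⊤ := (b3.trans_lt ENNReal.ofReal_lt_top).ne
    have b5 : (TW (errm w S κ τ) (G k τ l₂)).toReal ≤ σ l₂ / 2 := by
      have := ENNReal.toReal_mono ENNReal.ofReal_ne_top b3
      rwa [ENNReal.toReal_ofReal (by linarith)] at this
    have b6 : T k τ l₂ ≤ θ k τ l₂ * q k τ l₂ := by
      have h3 := hsE k τ l₂
      have h4 : T k τ l₂ ≤ l₂ * T k τ l₂ := le_mul_of_one_le_left (hT0 _ _ _) (by linarith)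
      linarith
    have b7 : c0 * s k τ l₂ ^ ((2 : ℝ) / 3) ≤ l₂ * T k τ l₂ := by
      refine hcost k τ l₂ K p1 p2 h20 hK0 hsp b4 ?_
      have h3 : n * (Cw * q k τ l₂) ≤ 2 * (n * Cw) * (θ k τ l₂ * q k τ l₂) := by
        have h4 : (0 : ℝ) ≤ n * Cw * q k τ l₂ := by
          have := hq0 k τ l₂
          positivity
        nlinarith
      have h5 : 0 ≤ θ k τ l₂ * q k τ l₂ := by linarith
      rw [hK]
      linarith
    have b8 := hs1 k τ l₁ l₂ p1 p2 h10 h20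
    have b9 : c0 * s k τ l₂ ^ ((2 : ℝ) / 3) / l₂ ≤ T k τ l₂ := by
      rw [div_le_iff₀ h20]; linarith
    have b10 := mul_le_mul_of_nonneg_left b9 (show 0 ≤ l₂ - l₁ by linarith)
    show s k τ l₂ + (l₂ - l₁) * (c0 * s k τ l₂ ^ ((2 : ℝ) / 3) / l₂) ≤ s k τ l₁
    linarith
  -- extinction in the limit
  have hext0 : σ L0 = 0 := by
    refine extinct σ (fun l => c0 * σ l ^ ((2 : ℝ) / 3) / l) M c0 hc00 hM.le
      (fun l hl => ⟨hσ0 l (by linarith), hσM l (by linarith)⟩) hmain (fun l hl _ => ?_) L0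
      (by rw [hL0]; linarith)
    have hl0 : l ≠ 0 := by linarith
    show c0 * σ l ^ ((2 : ℝ) / 3) ≤ l * (c0 * σ l ^ ((2 : ℝ) / 3) / l)
    rw [mul_div_cancel₀ _ hl0]
  -- phase 2
  set K2 : ℝ := n * Cw * C₁ * B + 1 + κ * B with hK2
  have hK20 : 0 < K2 := by positivity
  set c2 : ℝ := cst K2 M with hc2
  have hc20 : 0 < c2 := cst_pos hK20 hM
  obtain ⟨η, hη, hη2⟩ : ∃ η : ℝ, 0 < η ∧ Real.exp (3 * η ^ ((1 : ℝ) / 3) / c2) < 2 := by
    have h1 : Continuous fun x : ℝ => Real.exp (3 * x ^ ((1 : ℝ) / 3) / c2) := by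
      have : Continuous fun x : ℝ => x ^ ((1 : ℝ) / 3) := Real.continuous_rpow_const (by norm_num)
      fun_prop
    have h2 : Tendsto (fun x : ℝ => Real.exp (3 * x ^ ((1 : ℝ) / 3) / c2)) (𝓝 0) (𝓝 1) := by
      have h3 := h1.tendsto 0
      rw [Real.zero_rpow (by norm_num)] at h3
      simpa using h3
    have h4 : ∀ᶠ x in 𝓝[>] (0 : ℝ), Real.exp (3 * x ^ ((1 : ℝ) / 3) / c2) < 2 :=
      (h2.mono_left nhdsWithin_le_nhds).eventually (gt_mem_nhds (by norm_num))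
    obtain ⟨x, hx1, hx2⟩ := (h4.and self_mem_nhdsWithin).exists
    exact ⟨x, hx2, hx1⟩
  obtain ⟨k, hk⟩ : ∃ k : ℕ, 1 / 2 ≤ (r / 2) ^ dk k := by
    have h1 : Tendsto (fun k => (r / 2) ^ dk k) atTop (𝓝 ((r / 2) ^ (0 : ℝ))) :=
      (tendsto_const_nhds).rpow dk_tendsto (Or.inl (by positivity))
    rw [Real.rpow_zero] at h1
    obtain ⟨k, hk⟩ := (h1.eventually (lt_mem_nhds (show (1 / 2 : ℝ) < 1 by norm_num))).exists
    exact ⟨k, hk.le⟩
  have hSk0 : Sk k L0 = 0 := le_antisymm (hext0 ▸ hSσ k L0 hL00) (hSkm k L0 hL00).1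
  obtain ⟨j, hj⟩ : ∃ j, s k (ts j) L0 < η := by
    have h1 := hSk k L0 hL00
    rw [hSk0] at h1
    exact (h1.eventually (gt_mem_nhds hη)).exists
  have p1 := ts_pos j
  have p2 := ts_le_one j
  set τ := ts j with hτ
  refine ⟨τ, p1, p2, ?_⟩
  have hzero : s k τ (L0 * 2) = 0 := by
    refine extinct (fun l => s k τ (L0 * l)) (fun l => L0 * T k τ (L0 * l)) η c2 hc20 hη.le
      (fun l hl => ?_) (fun l₁ l₂ h1 h12 => ?_) (fun l hl hpos => ?_) 2 hη2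
    · have h0 : 0 < L0 * l := by positivity
      refine ⟨hs0 k τ _ p1 p2 h0, ?_⟩
      have h1 := hs1 k τ L0 (L0 * l) p1 p2 hL00 h0
      have h2 : 0 ≤ (L0 * l - L0) * T k τ (L0 * l) :=
        mul_nonneg (by nlinarith) (hT0 _ _ _)
      linarith
    · have h3 := hs1 k τ (L0 * l₁) (L0 * l₂) p1 p2 (by positivity)
        (mul_pos hL00 (by linarith))
      have h4 : (l₂ - l₁) * (L0 * T k τ (L0 * l₂)) =
          (L0 * l₂ - L0 * l₁) * T k τ (L0 * l₂) := by ring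
      show s k τ (L0 * l₂) + (l₂ - l₁) * (L0 * T k τ (L0 * l₂)) ≤ s k τ (L0 * l₁)
      rw [h4]
      exact h3
    · have h0 : 0 < L0 * l := by positivity
      have h0' : 1 ≤ L0 * l := by nlinarith
      set l' := L0 * l with hl'
      have hsp : 0 < s k τ l' := hpos
      have hGm := hG k τ l' ⟨p1, p2, h0⟩
      have hTW : TW w (G k τ l') ≤ ENNReal.ofReal B * TW (g τ) (G k τ l') :=
        TW_le_mul (hgB τ p1 p2) hB.le _
      have hTWf : TW w (G k τ l') ≠ ⊤ :=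
        (hTW.trans_lt (ENNReal.mul_lt_top ENNReal.ofReal_lt_top
          (lt_top_iff_ne_top.2 hGm.fin))).ne
      have hTWr : (TW w (G k τ l')).toReal ≤ B * T k τ l' := by
        have h3 := ENNReal.toReal_mono (ENNReal.mul_ne_top ENNReal.ofReal_ne_top hGm.fin) hTW
        rwa [ENNReal.toReal_mul, ENNReal.toReal_ofReal hB.le] at h3
      have hEl := TW_errm_le (S := S) hwH hS p1 hκ (G k τ l')
      have hEf : TW (errm w S κ τ) (G k τ l') ≠ ⊤ :=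
        (hEl.trans_lt (ENNReal.mul_lt_top ENNReal.ofReal_lt_top
          (lt_top_iff_ne_top.2 hTWf))).ne
      have hEr : (TW (errm w S κ τ) (G k τ l')).toReal ≤ κ * (TW w (G k τ l')).toReal := by
        have h3 := ENNReal.toReal_mono (ENNReal.mul_ne_top ENNReal.ofReal_ne_top hTWf) hEl
        rwa [ENNReal.toReal_mul, ENNReal.toReal_ofReal hκ.le] at h3
      have hq1 : q k τ l' ≤ C₁ * (TW w (G k τ l')).toReal := hc1 _ hGm.holo hTWf
      have b6 : T k τ l' ≤ θ k τ l' * q k τ l' := by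
        have h3 := hsE k τ l'
        have h4 : T k τ l' ≤ l' * T k τ l' := le_mul_of_one_le_left (hT0 _ _ _) h0'
        linarith
      have b7 : c2 * s k τ l' ^ ((2 : ℝ) / 3) ≤ l' * T k τ l' := by
        refine hcost k τ l' K2 p1 p2 h0 hK20 hsp hEf ?_
        have h4 : q k τ l' ≤ C₁ * (B * T k τ l') :=
          hq1.trans (mul_le_mul_of_nonneg_left hTWr hC₁.le)
        have h5 : n * (Cw * q k τ l') ≤ n * (Cw * (C₁ * (B * T k τ l'))) := by gcongr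
        have h6 : κ * (TW w (G k τ l')).toReal ≤ κ * (B * T k τ l') := by gcongr
        have h7 : n * (Cw * q k τ l') + (T k τ l' + (TW (errm w S κ τ) (G k τ l')).toReal) ≤
            K2 * T k τ l' := by
          rw [hK2]; linarith
        exact h7.trans (mul_le_mul_of_nonneg_left b6 hK20.le)
      show c2 * s k τ l' ^ ((2 : ℝ) / 3) ≤ l * (L0 * T k τ l')
      have h8 : l * (L0 * T k τ l') = l' * T k τ l' := by rw [hl']; ring
      rw [h8]
      exact b7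
  -- the bound for all discs, hence the lower bound of the metric
  have hfin : ∀ f : ℂ → X, HolD n f → TW (g τ) f ≠ ⊤ →
      BR.spd (wt (rho S k τ) w) f 0 ≤ (L0 * 2) * (TW (g τ) f).toReal := by
    intro f hf hfT
    have h1 := (hG k τ (L0 * 2) ⟨p1, p2, by positivity⟩).max f hf hfT
    have h2 : PhX (wt (rho S k τ) w) (g τ) (L0 * 2) (G k τ (L0 * 2)) = 0 := hzero
    rw [h2] at h1
    unfold PhX at h1
    linarith
  have hps := xsd n X (wt (rho S k τ) w) (g τ) (hwt k τ p1) (hgK τ p1 p2).toIsHermitian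
    (L0 * 2) (by positivity) hfin
  intro e x hx hrx
  have h1 := hps e x hx
  rw [wt_at hx] at h1
  have hρ : 1 / 2 ≤ rho S k τ x := by
    refine hk.trans ?_
    refine Real.rpow_le_rpow (by positivity) ?_ (dk_pos k).le
    linarith
  have hsm : ∀ {A : Matrix (Fin n) (Fin n) ℂ} {c : ℝ}, A.PosSemidef → 0 ≤ c →
      ((c : ℂ) • A).PosSemidef := by
    intro A c hA hc
    have e1 : ((c : ℂ) • A) = c • A := by ext i j; simp
    rw [e1]
    exact hA.smul hc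
  have h2 : g τ e (e x) - ((1 / (2 * L0) : ℝ) : ℂ) • w e (e x) =
      ((1 / L0 : ℝ) : ℂ) • (((L0 * 2 / 2 : ℝ) : ℂ) • g τ e (e x) -
        ((rho S k τ x : ℝ) : ℂ) • w e (e x)) +
      (((rho S k τ x - 1 / 2) / L0 : ℝ) : ℂ) • w e (e x) := by
    have hL : (L0 : ℂ) ≠ 0 := by exact_mod_cast hL00.ne'
    rw [smul_sub, smul_smul, smul_smul, sub_add, ← sub_smul]
    congr 1
    · rw [← Complex.ofReal_mul]
      have : 1 / L0 * (L0 * 2 / 2) = 1 := by field_simp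
      rw [this]; simp
    · congr 1
      push_cast
      field_simp
      ring
  rw [h2]
  exact (hsm h1 (by positivity)).add (hsm (hwH.posDef e x hx).posSemidef
    (div_nonneg (by linarith) hL00.le))

end Vale.Agent.P270.R2.H73
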