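import Vale.Agent.P272.XT.Defs
import Vale.Agent.P272.K.AMP.Iface

/-!
# P270 / P285, Theorem R1: `K_X + Δ` is positive for klt pairs on hyperbolic manifolds.
Frozen interface statements of the weighted uniform Schwarz lemma.
-/

open scoped Manifold ContDiff ComplexOrder Topology ENNReal
open MeasureTheory Metric Set Filter

noncomputable section

namespace Vale.Agent.P270.R2.H73

open Vale.Agent.P272.K Vale.Agent.P272.HY Vale.Agent.P272.XT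
open Vale.Agent.P272 (BR.spd)
open Vale.Agent.P272.K.AMP (hess)

section
variable {n : ℕ} {X : Type} [TopologicalSpace X] [ChartedSpace (Cm n) X]

/-- the conformal metric `ρ w` -/
def wt (ρ : X → ℝ) (w : Chart n X → Cm n → Matrix (Fin n) (Fin n) ℂ) :
    Chart n X → Cm n → Matrix (Fin n) (Fin n) ℂ :=
  fun e z => ((ρ (e.symm z) : ℝ) : ℂ) • w e z

/-- `i∂∂̄ log(S + τ) ≥ - C w` -/
def LowLog (w : Chart n X → Cm n → Matrix (Fin n) (Fin n) ℂ) (S : X → ℝ) (C : ℝ) : Prop :=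
  ∀ τ : ℝ, 0 < τ → ∀ e x, At e x →
    (hess (fun y => Real.log (S y + τ)) e (e x) + (C : ℂ) • w e (e x)).PosSemidef

/-- `Ric(g) ≥ - G` -/
def RicGeG (g G : Chart n X → Cm n → Matrix (Fin n) (Fin n) ℂ) : Prop :=
  ∀ e x, At e x → (-cHess (fun z => Real.log (g e z).det.re) (e x) + G e (e x)).PosSemidef

/-- no disc centred off `{S = 0}` meets `{S = 0}` in a set of positive measure -/
def NullZ (n : ℕ) {X : Type} [TopologicalSpace X] [ChartedSpace (Cm n) X] (S : X → ℝ) : Prop :=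
  ∀ f : ℂ → X, HolD n f → 0 < S (f 0) → volume {z : ℂ | z ∈ ball (0 : ℂ) 1 ∧ S (f z) = 0} = 0

/-- the constant of the cost estimate -/
def cst (K M : ℝ) : ℝ :=
  Real.exp (-2 * ((K * √M + √(2 * K)) * √M)) / 2 * (4 * (K * √M + √(2 * K))) ^ (-(2 / 3) : ℝ)

end

section
variable (n : ℕ) (X : Type) [TopologicalSpace X] [ChartedSpace (Cm n) X]

/-- **M1** Jensen's inequality for `log det g` if `Ric(g) ≥ - G` -/
def X13W : Prop := ∀ g G : Chart n X → Cm n → Matrix (Fin n) (Fin n) ℂ, IsHermitian g →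
  IsHermitian G → RicGeG g G →
  ∀ (δ : ℝ) (f : ℂ → X) (F : ℂ → Cm n → X), HolTube f δ F → TW G f ≠ ⊤ →
  Real.circleAverage (fun z => Real.log (pbM g F z).det.re) 0 1 - (TW G f).toReal ≤
    ∫ z in ball (0 : ℂ) 1, 1 / Real.pi * Real.log (pbM g F z).det.re

/-- **M2** second variation with a moving centre for the weighted speed: the constant does not
depend on the weight `ρ` with `i∂∂̄ log ρ ≥ - C w` -/
def X11bW : Prop := ∀ w : Chart n X → Cm n → Matrix (Fin n) (Fin n) ℂ, IsHermitian w →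
  ∀ C : ℝ, 0 ≤ C → ∃ Cw : ℝ, 0 ≤ Cw ∧
  ∀ ρ : X → ℝ, SmoothFn (n := n) ρ → (∀ x, 0 < ρ x) →
  (∀ e x, At e x →
    (hess (fun y => Real.log (ρ y)) e (e x) + (C : ℂ) • w e (e x)).PosSemidef) →
  ∀ w' : Chart n X → Cm n → Matrix (Fin n) (Fin n) ℂ, IsKahler w' →
  ∀ (lam δ : ℝ) (f : ℂ → X) (F : ℂ → Cm n → X), 0 < lam → IsMaxX (wt ρ w) w' lam f →
  HolTube f δ F → ∀ p : Fin n → Polynomial ℂ,
  lam * ∫ z in ball (0 : ℂ) 1, 1 / Real.pi * hq (pbM w' F z) (fun i => (p i).eval z) ≤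
  lam * Real.circleAverage (fun z => hq (pbM w' F z) (fun i => (p i).eval z)) 0 1 +
    Cw * BR.spd (wt ρ w) f 0 * hq (pbM w F 0) (fun i => (p i).eval 0)

/-- **M3** the Ricci error of the regularised metrics is small at maximisers with a large speed:
`E = T_{κ τ/(S+τ) w}(f)` -/
def ECtl : Prop := ∀ w : Chart n X → Cm n → Matrix (Fin n) (Fin n) ℂ, IsHermitian w →
  ∀ M : ℝ, 0 < M → (∀ f : ℂ → X, HolD n f → BR.spd w f 0 ≤ M) →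
  ∀ S : X → ℝ, SmoothFn (n := n) S → (∀ x, 0 ≤ S x) → (∀ x, S x ≤ 1) → NullZ n S →
  ∀ B κ δ η ε : ℝ, 0 < B → 0 < κ → 0 < δ → 0 < η → 0 < ε → ∃ τ₀ : ℝ, 0 < τ₀ ∧ τ₀ ≤ 1 ∧
  ∀ τ : ℝ, 0 < τ → τ ≤ τ₀ →
  ∀ g : Chart n X → Cm n → Matrix (Fin n) (Fin n) ℂ, IsHermitian g →
  (∀ e x, At e x → ((B : ℂ) • g e (e x) - w e (e x)).PosSemidef) →
  ∀ lam : ℝ, 1 ≤ lam → ∀ f : ℂ → X,
  IsMaxX (wt (fun x => ((S x + τ) / 2) ^ δ) w) g lam f →
  η ≤ BR.spd (wt (fun x => ((S x + τ) / 2) ^ δ) w) f 0 →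
  TW (wt (fun x => κ * (τ / (S x + τ))) w) f ≤ ENNReal.ofReal ε

/-- **M4** the cost estimate at a maximiser -/
def XRAW : Prop := ∀ w : Chart n X → Cm n → Matrix (Fin n) (Fin n) ℂ, IsHermitian w →
  ∀ C : ℝ, 0 ≤ C → ∃ Cw : ℝ, 0 ≤ Cw ∧
  ∀ M : ℝ, 0 < M →
  ∀ ρ : X → ℝ, SmoothFn (n := n) ρ → (∀ x, 0 < ρ x) →
  (∀ f : ℂ → X, HolD n f → BR.spd (wt ρ w) f 0 ≤ M) →
  (∀ e x, At e x →
    (hess (fun y => Real.log (ρ y)) e (e x) + (C : ℂ) • w e (e x)).PosSemidef) →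
  ∀ g G : Chart n X → Cm n → Matrix (Fin n) (Fin n) ℂ, IsKahler g → IsHermitian G →
  RicGeG g G → ∀ lam K : ℝ, 0 < lam → 0 < K → ∀ f : ℂ → X, IsMaxX (wt ρ w) g lam f →
  0 < PhX (wt ρ w) g lam f → TW G f ≠ ⊤ →
  n * (Cw * BR.spd w f 0) + (TW G f).toReal ≤ K * BR.spd (wt ρ w) f 0 →
  cst K M * PhX (wt ρ w) g lam f ^ ((2 : ℝ) / 3) ≤ lam * (TW g f).toReal

/-- **M5** the weighted uniform Schwarz lemma: for a family `g τ` of Kähler metrics with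
`Ric(g τ) ≥ - g τ - κ τ/(S+τ) w` and `w ≤ B g τ`, and for each `r`, some `g τ` is `≥ c w` on
`{S ≥ r}`; `c` depends only on `w`, the bound `M` of the discs and `C`. -/
def ThmW : Prop := ∀ w : Chart n X → Cm n → Matrix (Fin n) (Fin n) ℂ, IsKahler w →
  ∀ M : ℝ, 0 < M → (∀ f : ℂ → X, HolD n f → BR.spd w f 0 ≤ M) → ∀ C : ℝ, 0 ≤ C →
  ∃ c : ℝ, 0 < c ∧
  ∀ S : X → ℝ, SmoothFn (n := n) S → (∀ x, 0 ≤ S x) → (∀ x, S x ≤ 1) → NullZ n S →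
  LowLog w S C →
  ∀ B κ : ℝ, 0 < B → 0 < κ →
  ∀ g : ℝ → Chart n X → Cm n → Matrix (Fin n) (Fin n) ℂ,
  (∀ τ, 0 < τ → τ ≤ 1 → IsKahler (g τ)) →
  (∀ τ, 0 < τ → τ ≤ 1 → ∀ e x, At e x → ((B : ℂ) • g τ e (e x) - w e (e x)).PosSemidef) →
  (∀ τ, 0 < τ → τ ≤ 1 → ∀ e x, At e x →
    (-cHess (fun z => Real.log (g τ e z).det.re) (e x) + g τ e (e x) +
      ((κ * (τ / (S x + τ)) : ℝ) : ℂ) • w e (e x)).PosSemidef) →
  ∀ r : ℝ, 0 < r → ∃ τ : ℝ, 0 < τ ∧ τ ≤ 1 ∧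
    ∀ e x, At e x → r ≤ S x → (g τ e (e x) - (c : ℂ) • w e (e x)).PosSemidef

end

end Vale.Agent.P270.R2.H73
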