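import Vale.Agent.P270.R2.H73.Tw
import Vale.Agent.P272.XT.ExtOf
import Mathlib.Order.Filter.Ultrafilter.Basic

/-!
# P270 / R1, module M5: the weighted uniform Schwarz lemma `ThmW` from `XRAW`, `ECtl`, `XEXT`
-/

open scoped Manifold ContDiff ComplexOrder Topology ENNReal
open MeasureTheory Metric Set Filter

set_option linter.all false

noncomputable section

namespace Vale.Agent.P270.R2.H73

open Vale.Agent.P272 Vale.Agent.P272.K Vale.Agent.P272.HY Vale.Agent.P272.XT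
open Vale.Agent.P272.K.AMP (hess)

/-! ### real analysis -/

/-- the exponents `2^-k` -/
def dk (k : ℕ) : ℝ := (1 / 2 : ℝ) ^ k

lemma dk_pos (k : ℕ) : 0 < dk k := by unfold dk; positivity

lemma dk_le_one (k : ℕ) : dk k ≤ 1 := pow_le_one₀ (by norm_num) (by norm_num)

lemma dk_succ (k : ℕ) : dk (k + 1) = dk k / 2 := by unfold dk; rw [pow_succ]; ring

lemma dk_tendsto : Tendsto dk atTop (𝓝 0) :=
  tendsto_pow_atTop_nhds_zero_of_lt_one (by norm_num) (by norm_num)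

/-- `x^(2^-(k+1)) = √(x^(2^-k))` -/
lemma rpow_dk_succ {x : ℝ} (hx : 0 ≤ x) (k : ℕ) : x ^ dk (k + 1) = √(x ^ dk k) := by
  rw [Real.sqrt_eq_rpow, ← Real.rpow_mul hx, dk_succ]
  congr 1
  ring

/-- if `(√θ - θ) q < σ/10` and `σ/2 ≤ θ q` then `θ ≥ 1/2` -/
lemma half_le_of {θ q σ : ℝ} (hθ : 0 ≤ θ) (hθ1 : θ ≤ 1) (hq : 0 ≤ q) (hσ : 0 < σ)
    (h1 : (√θ - θ) * q < σ / 10) (h2 : σ / 2 ≤ θ * q) : 1 / 2 ≤ θ := by
  by_contra h
  have h3 : θ < 1 / 2 := not_le.1 h
  set s : ℝ := √θ with hs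
  have hs0 : 0 ≤ s := Real.sqrt_nonneg _
  have hss : s * s = θ := Real.mul_self_sqrt hθ
  -- `s ≤ 3/4`... since `s² < 1/2 < 9/16`
  have h4 : s ≤ 3 / 4 := by nlinarith
  have h5 : θ ≤ s := by nlinarith
  -- `√θ - θ = s (1 - s) ≥ s / 4 ≥ θ / 4`
  have h6 : θ / 4 ≤ s - θ := by
    rw [← hss]; nlinarith
  have h7 : θ / 4 * q ≤ (s - θ) * q := mul_le_mul_of_nonneg_right h6 hq
  nlinarith

/-! ### the weights -/

section weights
variable {n : ℕ} {X : Type} [TopologicalSpace X] [ChartedSpace (Cm n) X]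
  {S : X → ℝ} {w : Chart n X → Cm n → Matrix (Fin n) (Fin n) ℂ} {k : ℕ} {τ : ℝ}

/-- the weight `((S + τ)/2)^(2^-k)` -/
def rho (S : X → ℝ) (k : ℕ) (τ : ℝ) (x : X) : ℝ := ((S x + τ) / 2) ^ dk k

lemma rho_pos (hS : ∀ x, 0 ≤ S x) (hτ : 0 < τ) (x : X) : 0 < rho S k τ x := by
  have := hS x
  exact Real.rpow_pos_of_pos (by linarith) _

lemma rho_le_one (hS : ∀ x, 0 ≤ S x) (hS1 : ∀ x, S x ≤ 1) (hτ : 0 < τ) (hτ1 : τ ≤ 1) (x : X) :
    rho S k τ x ≤ 1 := by
  have := hS x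
  have := hS1 x
  exact Real.rpow_le_one (by linarith) (by linarith) (dk_pos k).le

lemma rho_succ (hS : ∀ x, 0 ≤ S x) (hτ : 0 < τ) (x : X) :
    rho S (k + 1) τ x = √(rho S k τ x) := by
  have := hS x
  exact rpow_dk_succ (by linarith) k

lemma rho_eq_exp (hS : ∀ x, 0 ≤ S x) (hτ : 0 < τ) : rho S k τ =
    fun x => Real.exp (dk k * (Real.log (S x + τ) + -Real.log 2)) := by
  funext x
  have h := hS x
  unfold rho
  rw [Real.rpow_def_of_pos (by linarith), Real.log_div (by linarith) (by norm_num)]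
  congr 1
  ring

lemma smooth_logS (hSs : SmoothFn (n := n) S) (hS : ∀ x, 0 ≤ S x) (hτ : 0 < τ) :
    SmoothFn (n := n) (fun x => Real.log (S x + τ)) :=
  AMP.sm_log (AMP.sm_add hSs (AMP.smoothFn_const τ)) fun x => by have := hS x; linarith

lemma smooth_rho (hSs : SmoothFn (n := n) S) (hS : ∀ x, 0 ≤ S x) (hτ : 0 < τ) :
    SmoothFn (n := n) (rho S k τ) := by
  rw [rho_eq_exp hS hτ]
  exact AMP.sm_exp (AMP.sm_const_mul _ (AMP.sm_add (smooth_logS hSs hS hτ)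
    (AMP.smoothFn_const _)))

lemma low_rho (hw : IsHermitian w) (hSs : SmoothFn (n := n) S) (hS : ∀ x, 0 ≤ S x) {C : ℝ}
    (hC : 0 ≤ C) (hlow : LowLog w S C) (hτ : 0 < τ) {e : Chart n X} {x : X} (hx : At e x) :
    (hess (fun y => Real.log (rho S k τ y)) e (e x) + (C : ℂ) • w e (e x)).PosSemidef := by
  have sl := smooth_logS hSs hS hτ
  have h1 : (fun y => Real.log (rho S k τ y)) =
      fun y => dk k * (Real.log (S y + τ) + -Real.log 2) := by
    funext y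
    rw [rho_eq_exp hS hτ, Real.log_exp]
  have h2 : hess (fun y => Real.log (rho S k τ y)) e (e x) =
      ((dk k : ℝ) : ℂ) • hess (fun y => Real.log (S y + τ)) e (e x) := by
    rw [h1]
    unfold AMP.hess
    have a1 : ContDiffAt ℝ 2 (fun z => Real.log (S (e.symm z) + τ)) (e x) :=
      (sl e x hx).of_le INT.two_le_inf
    rw [C2.cHess_const_mul _ (a1.add contDiffAt_const), C2.cHess_add a1 contDiffAt_const,
      C2.cHess_const, add_zero]
  rw [h2]
  have h3 : ((dk k : ℝ) : ℂ) • hess (fun y => Real.log (S y + τ)) e (e x) +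
      (C : ℂ) • w e (e x) = ((dk k : ℝ) : ℂ) • (hess (fun y => Real.log (S y + τ)) e (e x) +
        (C : ℂ) • w e (e x)) + (((1 - dk k) * C : ℝ) : ℂ) • w e (e x) := by
    push_cast
    module
  rw [h3]
  have hs : ∀ {A : Matrix (Fin n) (Fin n) ℂ} {c : ℝ}, A.PosSemidef → 0 ≤ c →
      ((c : ℂ) • A).PosSemidef := by
    intro A c hA hc
    have e1 : ((c : ℂ) • A) = c • A := by ext i j; simp
    rw [e1]
    exact hA.smul hc
  exact (hs (hlow τ hτ e x hx) (dk_pos k).le).add (hs (hw.posDef e x hx).posSemidef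
    (mul_nonneg (by linarith [dk_le_one k]) hC))

end weights

/-! ### the maximisers -/

/-- the real number `TW` of the Ricci error -/
def errm {n : ℕ} {X : Type} [TopologicalSpace X] [ChartedSpace (Cm n) X]
    (w : Chart n X → Cm n → Matrix (Fin n) (Fin n) ℂ) (S : X → ℝ) (κ τ : ℝ) :
    Chart n X → Cm n → Matrix (Fin n) (Fin n) ℂ := wt (fun x => κ * (τ / (S x + τ))) w

section max
variable {n : ℕ} {X : Type} [TopologicalSpace X] [ChartedSpace (Cm n) X]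
  [IsManifold 𝓘(ℂ, Cm n) ω X]
  {w g : Chart n X → Cm n → Matrix (Fin n) (Fin n) ℂ} {S : X → ℝ} {τ κ C Cw M B : ℝ} {k : ℕ}
  {l : ℝ} {f : ℂ → X}

lemma smooth_err (hSs : SmoothFn (n := n) S) (hS : ∀ x, 0 ≤ S x) (hτ : 0 < τ) :
    SmoothFn (n := n) (fun x => κ * (τ / (S x + τ))) := by
  have h1 : (fun x => κ * (τ / (S x + τ))) =
      fun x => κ * (τ * Real.exp (-1 * Real.log (S x + τ))) := by
    funext x
    have h := hS x
    rw [neg_one_mul, Real.exp_neg, Real.exp_log (by linarith), div_eq_mul_inv]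
  rw [h1]
  exact AMP.sm_const_mul _ (AMP.sm_const_mul _ (AMP.sm_exp (AMP.sm_const_mul _
    (smooth_logS hSs hS hτ))))

lemma hermitian_errm (hw : IsHermitian w) (hSs : SmoothFn (n := n) S) (hS : ∀ x, 0 ≤ S x)
    (hτ : 0 < τ) (hκ : 0 < κ) : IsHermitian (errm w S κ τ) :=
  isHermitian_wt (smooth_err hSs hS hτ) (fun x => by
    have := hS x
    have : 0 < S x + τ := by linarith
    positivity) hw

/-- `E ≤ κ T_w` -/
lemma TW_errm_le (hw : IsHermitian w) (hS : ∀ x, 0 ≤ S x) (hτ : 0 < τ) (hκ : 0 < κ) (f : ℂ → X) :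
    TW (errm w S κ τ) f ≤ ENNReal.ofReal κ * TW w f := by
  refine TW_le_mul (fun e x hx => ?_) hκ.le f
  unfold errm
  rw [wt_at hx]
  have h1 : (κ : ℂ) • w e (e x) - ((κ * (τ / (S x + τ)) : ℝ) : ℂ) • w e (e x) =
      ((κ * (S x / (S x + τ)) : ℝ) : ℂ) • w e (e x) := by
    have h := hS x
    have h2 : κ - κ * (τ / (S x + τ)) = κ * (S x / (S x + τ)) := by
      have : S x + τ ≠ 0 := by linarith
      field_simp
      ring
    rw [← h2]
    push_cast
    module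
  rw [h1]
  have h := hS x
  have h3 : 0 ≤ κ * (S x / (S x + τ)) := by
    have : 0 < S x + τ := by linarith
    positivity
  have e1 : (((κ * (S x / (S x + τ)) : ℝ) : ℂ) • w e (e x)) =
      (κ * (S x / (S x + τ))) • w e (e x) := by ext i j; simp
  rw [e1]
  exact (hw.posDef e x hx).posSemidef.smul h3

variable [T2Space X] [CompactSpace X]

/-- the cost estimate for the Ricci form `g + κ τ/(S+τ) w`; `K` arbitrary -/
lemma cost (hw : IsHermitian w) (hg : IsKahler g) (hSs : SmoothFn (n := n) S)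
    (hS : ∀ x, 0 ≤ S x) (hS1 : ∀ x, S x ≤ 1) (hτ : 0 < τ) (hτ1 : τ ≤ 1) (hκ : 0 < κ) (hC : 0 ≤ C)
    (hlow : LowLog w S C) (hM : 0 < M) (hbd : ∀ f : ℂ → X, HolD n f → BR.spd w f 0 ≤ M)
    (hric : ∀ e x, At e x → (-cHess (fun z => Real.log (g e z).det.re) (e x) + g e (e x) +
      ((κ * (τ / (S x + τ)) : ℝ) : ℂ) • w e (e x)).PosSemidef)
    (hra : ∀ M : ℝ, 0 < M → ∀ ρ : X → ℝ, SmoothFn (n := n) ρ → (∀ x, 0 < ρ x) →
      (∀ f : ℂ → X, HolD n f → BR.spd (wt ρ w) f 0 ≤ M) →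
      (∀ e x, At e x →
        (hess (fun y => Real.log (ρ y)) e (e x) + (C : ℂ) • w e (e x)).PosSemidef) →
      ∀ g G : Chart n X → Cm n → Matrix (Fin n) (Fin n) ℂ, IsKahler g → IsHermitian G →
      RicGeG g G → ∀ lam K : ℝ, 0 < lam → 0 < K → ∀ f : ℂ → X, IsMaxX (wt ρ w) g lam f →
      0 < PhX (wt ρ w) g lam f → TW G f ≠ ⊤ →
      n * (Cw * BR.spd w f 0) + (TW G f).toReal ≤ K * BR.spd (wt ρ w) f 0 →
      cst K M * PhX (wt ρ w) g lam f ^ ((2 : ℝ) / 3) ≤ lam * (TW g f).toReal)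
    (hl : 0 < l) {K : ℝ} (hK : 0 < K) (hf : IsMaxX (wt (rho S k τ) w) g l f)
    (hpos : 0 < PhX (wt (rho S k τ) w) g l f) (hE : TW (errm w S κ τ) f ≠ ⊤)
    (hB : n * (Cw * BR.spd w f 0) + ((TW g f).toReal + (TW (errm w S κ τ) f).toReal) ≤
      K * BR.spd (wt (rho S k τ) w) f 0) :
    cst K M * PhX (wt (rho S k τ) w) g l f ^ ((2 : ℝ) / 3) ≤ l * (TW g f).toReal := by
  have hErr := hermitian_errm (κ := κ) hw hSs hS hτ hκ
  have hT : TW (fun e z => g e z + errm w S κ τ e z) f = TW g f + TW (errm w S κ τ) f :=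
    TW_add hg.toIsHermitian hErr hf.holo fun z => spd_add _ _ f z
  refine hra M hM (rho S k τ) (smooth_rho hSs hS hτ) (rho_pos hS hτ) (fun h hh => ?_)
    (fun e x hx => low_rho hw hSs hS hC hlow hτ hx) g (fun e z => g e z + errm w S κ τ e z) hg
    (isHermitian_add hg.toIsHermitian hErr) ?_ l K hl hK f hf hpos ?_ ?_
  · rw [spd_wt]
    have h1 := hbd h hh
    have h2 := BR.spd_nonneg hw h 0
    have h3 := rho_le_one (k := k) hS hS1 hτ hτ1 (h 0)
    have h4 := (rho_pos (k := k) hS hτ (h 0)).le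
    nlinarith
  · intro e x hx
    have h1 : errm w S κ τ e (e x) = ((κ * (τ / (S x + τ)) : ℝ) : ℂ) • w e (e x) := wt_at hx
    show (-cHess (fun z => Real.log (g e z).det.re) (e x) +
      (g e (e x) + errm w S κ τ e (e x))).PosSemidef
    rw [h1, ← add_assoc]
    exact hric e x hx
  · rw [hT]; exact ENNReal.add_ne_top.2 ⟨hf.fin, hE⟩
  · rw [hT, ENNReal.toReal_add hf.fin hE]
    exact hB

end max

end Vale.Agent.P270.R2.H73
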