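import Vale.Agent.P270.R2.H73.Wt
import Vale.Agent.P272.XT.X11
import Vale.Agent.P272.XT.X7
import Vale.Agent.P272.BD.VarX
import Vale.Agent.P272.GEO.B9
import Vale.Agent.P272.PB.B13a

/-!
# P270 / R1, module M4: the cost estimate `XRAW` from `X13W` and `X11bW`
-/

open scoped Manifold ContDiff ComplexOrder Topology ENNReal
open MeasureTheory Metric Set Filter

set_option linter.all false

noncomputable section

namespace Vale.Agent.P270.R2.H73

open Vale.Agent.P272 Vale.Agent.P272.K Vale.Agent.P272.HY Vale.Agent.P272.XT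
open Vale.Agent.P272.XT.RAG
open Vale.Agent.P272.K.AMP (hess)

/-- **M4** -/
theorem xraw (n : ℕ) (X : Type) [TopologicalSpace X] [T2Space X] [CompactSpace X]
    [ChartedSpace (Cm n) X] [IsManifold 𝓘(ℂ, Cm n) ω X] (h13 : X13W n X) (h11 : X11bW n X) :
    XRAW n X := by
  intro w hw C hC
  obtain ⟨Cw, hCw, h11b'⟩ := h11 w hw C hC
  refine ⟨Cw, hCw, ?_⟩
  intro M hM ρ hρ hρ0 hbd hlow g G hg hG hric lam K hlam0 hK0 f₀ hf₀ hpos hTG hBK
  have hn0 : (0 : ℝ) ≤ n := Nat.cast_nonneg n
  have hwρ := isHermitian_wt hρ hρ0 hw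
  obtain ⟨f, hfc, hff⟩ := BD.x56 (wt ρ w) g hwρ hg.toIsHermitian lam M hlam0 hbd f₀ hf₀
  have hf : IsMaxX (wt ρ w) g lam f := IsMaxX_congr hf₀ hff
  have hff0 : f 0 = f₀ 0 := hff 0 (mem_ball_self one_pos)
  rw [← PhX_congr hff] at hpos ⊢
  rw [← TW_congr g hff]
  rw [← TW_congr G hff] at hBK hTG
  rw [← spd_congr_ball (wt ρ w) hff (mem_ball_self one_pos),
    ← spd_congr_ball w hff (mem_ball_self one_pos)] at hBK
  clear hf₀ hff hff0 f₀
  obtain ⟨δ, F, hF⟩ := GEO.b9 n X f hfc hf.holo
  obtain ⟨u, hu, hus⟩ := x7 n X δ f F hF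
  obtain ⟨hPc, hPpd⟩ := PB.b13a n X g hg.toIsHermitian δ f F hF
  have hQpd := (PB.b13a n X (wt ρ w) hwρ δ f F hF).2 0 (mem_closedBall_self zero_le_one)
  have hT := hf.fin
  set P : ℂ → Matrix (Fin n) (Fin n) ℂ := fun z => (lam : ℂ) • pbM g F z with hPdef
  have hPc' : ContinuousOn P (closedBall 0 1) := hPc.const_smul (lam : ℂ)
  have hPpd' : ∀ z ∈ closedBall (0 : ℂ) 1, (P z).PosDef := fun z hz =>
    posDef_smul (hPpd z hz) hlam0
  have hhq : ∀ z v, hq (P z) v = lam * hq (pbM g F z) v := fun z v => hq_smul_real _ _ _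
  set a : ℝ := BR.spd (wt ρ w) f 0 with ha
  have haQ : a = hq (pbM (wt ρ w) F 0) (u 0) := hus _ hwρ 0 (mem_ball_self one_pos)
  have haM : a ≤ M := hbd f hf.holo
  set q : ℝ := BR.spd w f 0 with hq_def
  have hq0 : 0 ≤ q := BR.spd_nonneg hw f 0
  have haq : a = ρ (f 0) * q := spd_wt ρ w f 0
  set T : ℝ := (TW g f).toReal with hTdef
  have hT0 : 0 ≤ T := ENNReal.toReal_nonneg
  set E : ℝ := (TW G f).toReal with hEdef
  have hE0 : 0 ≤ E := ENNReal.toReal_nonneg
  obtain ⟨hint, hTi⟩ := TW_frame (w' := g) (g := f) (F := F) hPc hPpd hu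
    (fun z hz => hus g hg.toIsHermitian z hz) hT
  have hs : 0 < a - lam * T := hpos
  have hcost0 : 0 ≤ lam * T := by positivity
  have ha0 : 0 < a := by linarith
  have hint' : IntegrableOn (fun z => (1 - ‖z‖ ^ 2) / Real.pi * hq (P z) (u z)) (ball 0 1) := by
    refine (hint.const_mul lam).congr (Eventually.of_forall fun z => ?_)
    simp only [hhq]
    ring
  have hcost : ∫ z in ball (0 : ℂ) 1, (1 - ‖z‖ ^ 2) / Real.pi * hq (P z) (u z) = lam * T := by
    rw [hTdef, hTi, ← integral_const_mul]
    refine integral_congr_ae (Eventually.of_forall fun z => ?_)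
    simp only [hhq]
    ring
  have hca : ∀ p : Fin n → Polynomial ℂ,
      Real.circleAverage (fun z => hq (P z) (fun i => (p i).eval z)) 0 1 =
        lam * Real.circleAverage (fun z => hq (pbM g F z) (fun i => (p i).eval z)) 0 1 := by
    intro p
    rw [← smul_eq_mul lam, ← Real.circleAverage_fun_smul]
    simp only [hhq, smul_eq_mul]
  have hlogdet : ∀ z ∈ closedBall (0 : ℂ) 1, Real.log (P z).det.re =
      n * Real.log lam + Real.log (pbM g F z).det.re := fun z hz => logdet_smul (hPpd z hz) hlam0
  have hldc : ContinuousOn (fun z => Real.log (pbM g F z).det.re) (closedBall 0 1) :=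
    continuousOn_logdet hPc hPpd
  have hF0 : F 0 0 = f 0 := hF.zero 0 (mem_closedBall_self zero_le_one)
  have hmov : ∀ v, Cw * a * hq (pbM w F 0) v = Cw * q * hq (pbM (wt ρ w) F 0) v := by
    intro v
    rw [pbM_wt, hF0, hq_smul_real, haq]
    ring
  have key := core P hPc' hPpd' u hu (pbM (wt ρ w) F 0) hQpd.posSemidef (Cw * q) E
    (by positivity) hE0
    (by
      intro p
      rw [hca p]
      refine le_trans (le_of_eq ?_) (x11a n X (wt ρ w) g hwρ hg lam δ f F hlam0 hf hF p)
      congr 1
      rw [← integral_const_mul]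
      refine integral_congr_ae (Eventually.of_forall fun z => ?_)
      simp only [hhq]
      ring)
    (by
      intro p
      rw [hca p, ← hmov]
      refine le_trans (le_of_eq ?_) (h11b' ρ hρ hρ0 hlow g hg lam δ f F hlam0 hf hF p)
      rw [← integral_const_mul]
      refine integral_congr_ae (Eventually.of_forall fun z => ?_)
      simp only [hhq]
      ring)
    (by
      have hJ := h13 g G hg.toIsHermitian hG hric δ f F hF hTG
      have h1 : Real.circleAverage (fun z => Real.log (P z).det.re) 0 1 =
          n * Real.log lam +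
            Real.circleAverage (fun z => Real.log (pbM g F z).det.re) 0 1 := by
        rw [Real.circleAverage_congr_sphere (f₂ := fun z => n * Real.log lam +
          Real.log (pbM g F z).det.re) (fun z hz => hlogdet z (by
            rw [abs_one] at hz; exact sphere_subset_closedBall hz))]
        rw [Real.circleAverage_fun_add (circleIntegrable_const _ _ _)
          ((hldc.mono sphere_subset_closedBall).circleIntegrable zero_le_one),
          Real.circleAverage_const]
      have hi : IntegrableOn (fun z => 1 / Real.pi * Real.log (pbM g F z).det.re)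
          (ball (0 : ℂ) 1) := by
        have h2 : IntegrableOn (fun z => Real.log (pbM g F z).det.re) (closedBall (0 : ℂ) 1) :=
          hldc.integrableOn_compact (isCompact_closedBall _ _)
        exact (h2.mono_set ball_subset_closedBall).const_mul _
      have h3 : ∫ z in ball (0 : ℂ) 1, 1 / Real.pi * Real.log (P z).det.re =
          n * Real.log lam + ∫ z in ball (0 : ℂ) 1,
            1 / Real.pi * Real.log (pbM g F z).det.re := by
        rw [setIntegral_congr_fun (g := fun z => n * Real.log lam * (1 / Real.pi) +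
          1 / Real.pi * Real.log (pbM g F z).det.re) measurableSet_ball (fun z hz => by
            simp only [hlogdet z (ball_subset_closedBall hz)]; ring)]
        rw [integral_add _ hi, integral_const_mul, int_unit, mul_one]
        exact integrableOn_const (by simp) enorm_ne_top
      rw [h1, h3]
      linarith)
    hint' (by rw [← haQ]; exact ha0)
  rw [← haQ, hcost] at key
  have hB0 : 0 ≤ n * (Cw * q) + E := by positivity
  exact ra_real ha0 haM hK0 hB0 hBK key hs

end Vale.Agent.P270.R2.H73
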