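import Vale.Agent.P270.R2.H73.Main
import Vale.Agent.P270.R2.H73.Xraw
import Vale.Agent.P270.R2.H877.M1
import Vale.Agent.P270.R2.H877.M2
import Vale.Agent.P270.R2.H824.Ectl
import Vale.Agent.P272.TOP.Q1

/-!
# P270 / P285, Theorem R1: the weighted uniform Schwarz lemma, unconditionally
-/

open scoped Manifold ContDiff ComplexOrder Topology

noncomputable section

namespace Vale.Agent.P270.R2.H73

open Vale.Agent.P272.K Vale.Agent.P272.XT

/-- **the weighted uniform Schwarz lemma** -/
theorem thmW_top (n : ℕ) (X : Type) [TopologicalSpace X] [T2Space X] [CompactSpace X]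
    [ChartedSpace (Cm n) X] [IsManifold 𝓘(ℂ, Cm n) ω X] : ThmW n X :=
  thmW n X (xraw n X (H877.M1.x13W n X) (H877.x11bW n X)) (H824.ectl n X)
    (xext_of n X (Vale.Agent.P272.TOP.xra n X))

end Vale.Agent.P270.R2.H73
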