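import Vale.Agent.P270.R2.H73.Wt
import Vale.Agent.P272.XT.X4
import Vale.Agent.P272.XT.Small
import Vale.Agent.P272.K.AMP.Main.Step0
import Vale.Agent.P272.K.EST.Local

/-!
# P270 / R1: comparison of the characteristics `TW`
-/

open scoped Manifold ContDiff ComplexOrder Topology ENNReal
open MeasureTheory Metric Set Filter

noncomputable section

namespace Vale.Agent.P270.R2.H73

open Vale.Agent.P272 Vale.Agent.P272.K Vale.Agent.P272.HY Vale.Agent.P272.XT
open Vale.Agent.P272.K.AMP (hess)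

variable {n : ℕ} {X : Type} [TopologicalSpace X] [ChartedSpace (Cm n) X]
  {w g : Chart n X → Cm n → Matrix (Fin n) (Fin n) ℂ} {f : ℂ → X} {B : ℝ}

lemma spd_le (h : ∀ e x, At e x → ((B : ℂ) • g e (e x) - w e (e x)).PosSemidef) (f : ℂ → X)
    (z : ℂ) : BR.spd w f z ≤ B * BR.spd g f z := by
  have hx := BR.at_chartAt (n := n) (f z)
  have h1 := quad_nonneg (h _ _ hx) (vel f (chartAt (Cm n) (f z)) z)
  rw [SD.hq_sub_smul] at h1
  show hq (w _ _) _ ≤ B * hq (g _ _) _
  linarith

lemma TW_le_mul (h : ∀ e x, At e x → ((B : ℂ) • g e (e x) - w e (e x)).PosSemidef) (hB : 0 ≤ B)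
    (f : ℂ → X) : TW w f ≤ ENNReal.ofReal B * TW g f := by
  unfold TW
  rw [← lintegral_const_mul' _ _ ENNReal.ofReal_ne_top]
  refine setLIntegral_mono' measurableSet_ball fun z hz => ?_
  rw [← ENNReal.ofReal_mul hB]
  refine ENNReal.ofReal_le_ofReal ?_
  have h1 := mul_le_mul_of_nonneg_left (spd_le h f z) (SD.wt_nonneg hz)
  linarith

lemma TW_add [IsManifold 𝓘(ℂ, Cm n) ω X] {G a b : Chart n X → Cm n → Matrix (Fin n) (Fin n) ℂ}
    (ha : IsHermitian a) (hb : IsHermitian b) (hf : HolD n f)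
    (hG : ∀ z, BR.spd G f z = BR.spd a f z + BR.spd b f z) : TW G f = TW a f + TW b f := by
  have hm := (XT.aemeasurable_spd ha hf)
  have hk : Measurable fun z : ℂ => (1 - ‖z‖ ^ 2) / Real.pi := by fun_prop
  have hF : AEMeasurable (fun z => ENNReal.ofReal ((1 - ‖z‖ ^ 2) / Real.pi * BR.spd a f z))
      (volume.restrict (ball (0 : ℂ) 1)) := (hk.aemeasurable.mul hm).ennreal_ofReal
  unfold TW
  rw [← lintegral_add_left' hF]
  refine setLIntegral_congr_fun measurableSet_ball fun z hz => ?_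
  have h0 := SD.wt_nonneg hz
  rw [hG z, mul_add, ENNReal.ofReal_add (mul_nonneg h0 (BR.spd_nonneg ha f z))
    (mul_nonneg h0 (BR.spd_nonneg hb f z))]

/-- for the sum of two metrics -/
lemma spd_add (a b : Chart n X → Cm n → Matrix (Fin n) (Fin n) ℂ) (f : ℂ → X) (z : ℂ) :
    BR.spd (fun e z => a e z + b e z) f z = BR.spd a f z + BR.spd b f z := by
  unfold BR.spd quad
  simp only [Matrix.add_apply, add_mul, Finset.sum_add_distrib, Complex.add_re]

lemma isHermitian_add {a b : Chart n X → Cm n → Matrix (Fin n) (Fin n) ℂ} (ha : IsHermitian a)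
    (hb : IsHermitian b) : IsHermitian (fun e z => a e z + b e z) where
  smooth e x hx i j := (ha.smooth e x hx i j).add (hb.smooth e x hx i j)
  posDef e x hx := (ha.posDef e x hx).add (hb.posDef e x hx)
  change e e' x hx hx' := by
    rw [ha.change e e' x hx hx', hb.change e e' x hx hx', Matrix.mul_add, Matrix.add_mul]

/-- the metric `Λ w` -/
lemma isKahler_smul {Λ : ℝ} (hΛ : 0 < Λ) (hw : IsKahler w) :
    IsKahler (fun e z => ((Λ : ℝ) : ℂ) • w e z) where
  smooth e x hx i j := contDiffAt_const.mul (hw.smooth e x hx i j)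
  posDef e x hx := RAG.posDef_smul (hw.posDef e x hx) hΛ
  change e e' x hx hx' := by
    rw [hw.change e e' x hx hx', Matrix.mul_smul, Matrix.smul_mul]
  closed e x hx i j k := by
    have h1 : ∀ (k i j : Fin n), dz k (fun z => (((Λ : ℝ) : ℂ) • w e z) i j) (e x) =
        (Λ : ℂ) * dz k (fun z => w e z i j) (e x) := by
      intro k i j
      have h2 : (fun z => (((Λ : ℝ) : ℂ) • w e z) i j) = fun z => (Λ : ℂ) * w e z i j := by
        funext z; simp
      rw [h2]
      exact C2.dz_const_mul _ (Λ : ℂ) (((hw.smooth e x hx i j).differentiableAt (by simp)))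
    rw [h1, h1, hw.closed e x hx i j k]

variable [IsManifold 𝓘(ℂ, Cm n) ω X] [T2Space X] [CompactSpace X]

/-- `|f'(0)|²_w ≤ C₁ T_w(f)` for all discs -/
theorem exists_c1 (hext : XEXT n X) (hw : IsKahler w) {M : ℝ} (hM : 0 < M)
    (hbd : ∀ f : ℂ → X, HolD n f → BR.spd w f 0 ≤ M) :
    ∃ C₁ : ℝ, 0 < C₁ ∧ ∀ f : ℂ → X, HolD n f → TW w f ≠ ⊤ →
      BR.spd w f 0 ≤ C₁ * (TW w f).toReal := by
  obtain ⟨L, hL, H⟩ := hext w hw.toIsHermitian M hM hbd
  have hc := AMP.Main.isCanonical_logdet hw.toIsHermitian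
  have hcl := INT.isClosedForm_canonical hc
  obtain ⟨Λ, hΛ, hΛ'⟩ := AMP.Main.exists_comparison'
    (b := fun e z => cHess (fun z => Real.log (w e z).det.re) z)
    hw.toIsHermitian hcl.smooth hcl.form
    (fun e x hx => C2.cHess_isHermitian ((hc.smooth e x hx).of_le INT.two_le_inf))
  set g : Chart n X → Cm n → Matrix (Fin n) (Fin n) ℂ := fun e z => ((Λ : ℝ) : ℂ) • w e z with hg
  have hgK : IsKahler g := isKahler_smul hΛ hw
  have hric : RicGe g := by
    intro e x hx
    have h1 : (fun z => Real.log (g e z).det.re) =ᶠ[𝓝 (e x)]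
        fun z => n * Real.log Λ + Real.log (w e z).det.re := by
      filter_upwards [hx.nhds_target] with z hz
      have h2 := hw.posDef e _ (At.of_target hx.1 hz)
      rw [e.right_inv hz] at h2
      exact RAG.logdet_smul h2 hΛ
    have h3 : cHess (fun z => Real.log (g e z).det.re) (e x) =
        cHess (fun z => Real.log (w e z).det.re) (e x) := by
      rw [cHess_congr h1]
      have := cHess_add (f := fun _ : Cm n => n * Real.log Λ) (g := fun z => Real.log (w e z).det.re)
        (z := e x) contDiffAt_const ((hc.smooth e x hx).of_le INT.two_le_inf)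
      rw [this]
      have h0 : cHess (fun _ : Cm n => n * Real.log Λ) (e x) = 0 := C2.cHess_const _
      rw [h0, zero_add]
    rw [h3]
    have := hΛ' e x hx
    rwa [sub_eq_neg_add] at this
  refine ⟨L * Λ, by positivity, fun f hf hT => ?_⟩
  have hspd : ∀ z, BR.spd g f z = Λ * BR.spd w f z := by
    intro z
    show hq (g _ _) _ = Λ * hq (w _ _) _
    exact RAG.hq_smul_real _ _ _
  have hTg : TW g f = ENNReal.ofReal Λ * TW w f := by
    unfold TW
    rw [← lintegral_const_mul' _ _ ENNReal.ofReal_ne_top]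
    refine setLIntegral_congr_fun measurableSet_ball fun z hz => ?_
    rw [hspd, ← ENNReal.ofReal_mul hΛ.le]
    congr 1
    ring
  have hTgf : TW g f ≠ ⊤ := by
    rw [hTg]; exact ENNReal.mul_ne_top ENNReal.ofReal_ne_top hT
  have h1 := H g hgK hric f hf hTgf
  rw [hTg, ENNReal.toReal_mul, ENNReal.toReal_ofReal hΛ.le] at h1
  linarith

end Vale.Agent.P270.R2.H73
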