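import Vale.Agent.P270.R2.H73.Stmt
import Vale.Agent.P272.XT.RAG2

/-!
# P270 / R1: conformal metrics `ρ w`
-/

open scoped Manifold ContDiff ComplexOrder Topology ENNReal
open MeasureTheory Metric Set Filter

noncomputable section

namespace Vale.Agent.P270.R2.H73

open Vale.Agent.P272 Vale.Agent.P272.K Vale.Agent.P272.HY Vale.Agent.P272.XT
open Vale.Agent.P272.K.AMP (hess)

variable {n : ℕ} {X : Type} [TopologicalSpace X] [ChartedSpace (Cm n) X]
  {ρ : X → ℝ} {w : Chart n X → Cm n → Matrix (Fin n) (Fin n) ℂ}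

lemma wt_at {e : Chart n X} {x : X} (h : At e x) : wt ρ w e (e x) = ((ρ x : ℝ) : ℂ) • w e (e x) := by
  unfold wt
  rw [e.left_inv h.2]

lemma spd_wt (ρ : X → ℝ) (w : Chart n X → Cm n → Matrix (Fin n) (Fin n) ℂ) (f : ℂ → X) (z : ℂ) :
    BR.spd (wt ρ w) f z = ρ (f z) * BR.spd w f z := by
  have h : At (chartAt (Cm n) (f z) : Chart n X) (f z) :=
    ⟨chart_mem_atlas _ _, mem_chart_source _ _⟩
  show hq (wt ρ w _ _) _ = ρ (f z) * hq (w _ _) _
  rw [wt_at h, RAG.hq_smul_real]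

lemma pbM_wt (ρ : X → ℝ) (w : Chart n X → Cm n → Matrix (Fin n) (Fin n) ℂ) (F : ℂ → Cm n → X)
    (z : ℂ) : pbM (wt ρ w) F z = ((ρ (F z 0) : ℝ) : ℂ) • pbM w F z := by
  have h : At (chartAt (Cm n) (F z 0) : Chart n X) (F z 0) :=
    ⟨chart_mem_atlas _ _, mem_chart_source _ _⟩
  unfold pbM
  rw [wt_at h, Matrix.mul_smul, Matrix.smul_mul]

lemma isHermitian_wt (hρ : SmoothFn (n := n) ρ) (h0 : ∀ x, 0 < ρ x) (hw : IsHermitian w) :
    IsHermitian (wt ρ w) where
  smooth e x hx i j := by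
    have h1 : ContDiffAt ℝ ∞ (fun z => ((ρ (e.symm z) : ℝ) : ℂ)) (e x) :=
      Complex.ofRealCLM.contDiff.contDiffAt.comp (e x) (hρ e x hx)
    have h2 : (fun z => wt ρ w e z i j) = fun z => ((ρ (e.symm z) : ℝ) : ℂ) * w e z i j := by
      funext z; simp [wt]
    rw [h2]
    exact h1.mul (hw.smooth e x hx i j)
  posDef e x hx := by
    rw [wt_at hx]
    exact RAG.posDef_smul (hw.posDef e x hx) (h0 x)
  change e e' x hx hx' := by
    rw [wt_at hx, wt_at hx', hw.change e e' x hx hx', Matrix.mul_smul, Matrix.smul_mul]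

end Vale.Agent.P270.R2.H73
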